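import Mathlib

/-! P231: an implicit function theorem for overdetermined systems which are known to have
solutions. -/

open Set Filter Module
open scoped ContDiff Topology

namespace Vale.Agent.P231.H775

noncomputable section

variable {V X Y : Type*} [NormedAddCommGroup V] [NormedSpace ℝ V] [CompleteSpace V]
  [NormedAddCommGroup X] [NormedSpace ℝ X] [FiniteDimensional ℝ X]
  [NormedAddCommGroup Y] [NormedSpace ℝ Y] [FiniteDimensional ℝ Y]

/-- inverse function theorem with smoothness of the inverse nearby -/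
theorem localInverse_smooth {W : Type*} [NormedAddCommGroup W] [NormedSpace ℝ W] [CompleteSpace W]
    {Ψ : W → W} {p : W} (hΨ : ∀ᶠ q in 𝓝 p, ContDiffAt ℝ ∞ Ψ q) (A : W ≃L[ℝ] W)
    (hA : fderiv ℝ Ψ p = (A : W →L[ℝ] W)) :
    ∃ G : W → W, G (Ψ p) = p ∧ (∀ᶠ q in 𝓝 p, G (Ψ q) = q) ∧
      (∀ᶠ a in 𝓝 (Ψ p), Ψ (G a) = a) ∧ (∀ᶠ a in 𝓝 (Ψ p), ContDiffAt ℝ ∞ G a) := by
  have hp := hΨ.self_of_nhds
  have hd : HasFDerivAt Ψ (A : W →L[ℝ] W) p := by
    rw [← hA]
    exact (hp.differentiableAt (by simp)).hasFDerivAt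
  set f := hp.toOpenPartialHomeomorph Ψ hd (by simp) with hf
  have hcoe : ∀ q, f q = Ψ q := fun q => rfl
  have hsrc : p ∈ f.source := hp.mem_toOpenPartialHomeomorph_source hd (by simp)
  have htgt : Ψ p ∈ f.target := hp.image_mem_toOpenPartialHomeomorph_target hd (by simp)
  have hsymm : f.symm (Ψ p) = p := f.left_inv hsrc
  refine ⟨f.symm, hsymm, ?_, ?_, ?_⟩
  · filter_upwards [f.open_source.mem_nhds hsrc] with q hq
    exact f.left_inv hq
  · filter_upwards [f.open_target.mem_nhds htgt] with a ha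
    exact f.right_inv ha
  · have hcont : ContinuousAt f.symm (Ψ p) := f.continuousAt_symm htgt
    have h1 : ∀ᶠ q in 𝓝 p, ContDiffAt ℝ ∞ Ψ q ∧ ∃ B : W ≃L[ℝ] W, fderiv ℝ Ψ q = (B : W →L[ℝ] W) := by
      have h2 : ContinuousAt (fderiv ℝ Ψ) p :=
        (hp.fderiv_right (m := 0) (by simp)).continuousAt
      have h3 : range ((↑) : (W ≃L[ℝ] W) → W →L[ℝ] W) ∈ 𝓝 (fderiv ℝ Ψ p) := by
        rw [hA]
        exact ContinuousLinearEquiv.nhds A
      filter_upwards [hΨ, h2.eventually h3] with q hq1 hq2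
      obtain ⟨B, hB⟩ := hq2
      exact ⟨hq1, B, hB.symm⟩
    have h4 : ∀ᶠ a in 𝓝 (Ψ p), ContDiffAt ℝ ∞ Ψ (f.symm a) ∧
        ∃ B : W ≃L[ℝ] W, fderiv ℝ Ψ (f.symm a) = (B : W →L[ℝ] W) := by
      have h5 : Tendsto f.symm (𝓝 (Ψ p)) (𝓝 p) := by
        have := hcont.tendsto
        rwa [hsymm] at this
      exact h5.eventually h1
    filter_upwards [h4, f.open_target.mem_nhds htgt] with a ha ht
    obtain ⟨h6, B, hB⟩ := ha
    refine f.contDiffAt_symm ht (f₀' := B) ?_ h6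
    rw [← hB]
    exact (h6.differentiableAt (by simp)).hasFDerivAt

/-- overdetermined implicit function theorem: a smooth system `Φ (s, ξ) = 0` whose differential
in `ξ` is injective at a solution, and which is known to have solutions nearby for all nearby
parameters, is solved by a smooth function. -/
theorem overdet {Φ : V × X → Y} {s0 : V} {ξ0 : X}
    (hΦ : ∀ᶠ p in 𝓝 (s0, ξ0), ContDiffAt ℝ ∞ Φ p) (h0 : Φ (s0, ξ0) = 0)
    (hinj : ∀ η, fderiv ℝ Φ (s0, ξ0) (0, η) = 0 → η = 0)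
    (hex : ∀ U ∈ 𝓝 ξ0, ∀ᶠ s in 𝓝 s0, ∃ ξ ∈ U, Φ (s, ξ) = 0) :
    ∃ h : V → X, h s0 = ξ0 ∧ (∀ᶠ s in 𝓝 s0, ContDiffAt ℝ ∞ h s ∧ Φ (s, h s) = 0) ∧
      (∀ᶠ p in 𝓝 (s0, ξ0), Φ p = 0 → h p.1 = p.2) := by
  set A : X →ₗ[ℝ] Y := (fderiv ℝ Φ (s0, ξ0)).toLinearMap ∘ₗ LinearMap.inr ℝ V X with hA
  have hker : LinearMap.ker A = ⊥ := by
    rw [LinearMap.ker_eq_bot']
    intro η hη
    exact hinj η hη
  obtain ⟨L, hL⟩ := A.exists_leftInverse_of_injective hker
  set Lc : Y →L[ℝ] X := LinearMap.toContinuousLinearMap L with hLc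
  set Ψ : V × X → V × X := fun p => (p.1, Lc (Φ p)) with hΨ
  have hΨs : ∀ᶠ q in 𝓝 (s0, ξ0), ContDiffAt ℝ ∞ Ψ q := by
    filter_upwards [hΦ] with q hq
    exact contDiffAt_fst.prodMk (Lc.contDiff.contDiffAt.comp q hq)
  have hΦd := hΦ.self_of_nhds.differentiableAt (by simp : (∞ : WithTop ℕ∞) ≠ 0)
  set T : V × X →L[ℝ] X := Lc.comp (fderiv ℝ Φ (s0, ξ0)) with hT
  have hT0 : ∀ η, T (0, η) = η := by
    intro η
    exact LinearMap.congr_fun hL η
  have hTs : ∀ q : V × X, T q = T (q.1, 0) + q.2 := by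
    intro q
    have : q = (q.1, 0) + (0, q.2) := by simp
    conv_lhs => rw [this]
    rw [map_add, hT0]
  set Ψ' : (V × X) ≃L[ℝ] (V × X) :=
    ContinuousLinearEquiv.equivOfInverse
      ((ContinuousLinearMap.fst ℝ V X).prod T)
      ((ContinuousLinearMap.fst ℝ V X).prod
        ((ContinuousLinearMap.snd ℝ V X) - T.comp ((ContinuousLinearMap.inl ℝ V X).comp
          (ContinuousLinearMap.fst ℝ V X))))
      (by
        intro q
        have := hTs q
        simp [this])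
      (by
        intro q
        have := hTs (q.1, q.2 - T (q.1, 0))
        simp [this]) with hΨ'
  have hder : fderiv ℝ Ψ (s0, ξ0) = (Ψ' : V × X →L[ℝ] V × X) := by
    have h1 : HasFDerivAt Ψ ((ContinuousLinearMap.fst ℝ V X).prod T) (s0, ξ0) :=
      hasFDerivAt_fst.prodMk (Lc.hasFDerivAt.comp _ hΦd.hasFDerivAt)
    rw [h1.fderiv]
    rfl
  obtain ⟨G, hG0, hG1, hG2, hG3⟩ := localInverse_smooth hΨs Ψ' hder
  have hΨ0 : Ψ (s0, ξ0) = (s0, 0) := by simp [hΨ, h0]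
  rw [hΨ0] at hG0 hG2 hG3
  refine ⟨fun s => (G (s, 0)).2, by simp [hG0], ?_, ?_⟩
  · have hc : Tendsto (fun s : V => ((s, 0) : V × X)) (𝓝 s0) (𝓝 (s0, 0)) :=
      (Continuous.prodMk continuous_id continuous_const).tendsto' _ _ rfl
    obtain ⟨U1, hU1, U2, hU2, hU⟩ := mem_nhds_prod_iff.1 hG1
    have h2 := hex U2 hU2
    filter_upwards [hc.eventually hG3, h2, hU1] with s hs hs2 hs3
    refine ⟨?_, ?_⟩
    · have h3 : ContDiffAt ℝ ∞ (fun s : V => G (s, 0)) s :=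
        hs.comp s (contDiffAt_id.prodMk contDiffAt_const)
      exact h3.snd
    · obtain ⟨ξ, hξ, h4⟩ := hs2
      have h5 : G (Ψ (s, ξ)) = (s, ξ) := hU (mk_mem_prod hs3 hξ)
      have h6 : Ψ (s, ξ) = (s, 0) := by simp [hΨ, h4]
      rw [h6] at h5
      simp only [h5]
      exact h4
  · filter_upwards [hG1] with p hp hp0
    have h6 : Ψ p = (p.1, 0) := by simp [hΨ, hp0]
    rw [h6] at hp
    simp only [hp]

end

end Vale.Agent.P231.H775
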