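import Mathlib
import Vale.Agent.P231.Bd3.B5

/-! P231: the geometry of the cut pairs of a Blaschke manifold: great spheres, kernels, images. -/

set_option maxSynthPendingDepth 3
set_option linter.unusedSectionVars false

open Bundle Manifold Set Filter Module
open scoped ContDiff Manifold Topology

namespace Vale.Agent.P231.H775

open Vale.Agent.P234 Vale.Agent.P231

noncomputable section

variable {E : Type*} [NormedAddCommGroup E] [NormedSpace ℝ E] [FiniteDimensional ℝ E]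
  {M : Type*} [MetricSpace M] [ChartedSpace E M] [IsManifold 𝓘(ℝ, E) ∞ M]
  [RiemannianBundle (fun x : M => TangentSpace 𝓘(ℝ, E) x)]
  [IsContMDiffRiemannianBundle 𝓘(ℝ, E) ∞ E (fun x : M => TangentSpace 𝓘(ℝ, E) x)]
  {e : ∀ x : M, TangentSpace 𝓘(ℝ, E) x → M}

/-- the span of the directions at `y` of the minimal geodesics from `y` to `x` -/
def Pl (e : ∀ x : M, TangentSpace 𝓘(ℝ, E) x → M) (D : ℝ) (x y : M) :
    Submodule ℝ (TangentSpace 𝓘(ℝ, E) y) := Submodule.span ℝ (Lk e D x y)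

theorem Lk_subset_Pl (D : ℝ) (x y : M) {u : TangentSpace 𝓘(ℝ, E) y} (hu : u ∈ Lk e D x y) :
    u ∈ Pl e D x y := Submodule.subset_span hu

section

variable [CompactSpace M] [ConnectedSpace M] [IsRiemannianManifold 𝓘(ℝ, E) M]

theorem dist_of_Lk {D : ℝ} (hD : 0 < D) (hB : InjGE e D) {x y : M}
    {u : TangentSpace 𝓘(ℝ, E) y} (hu : u ∈ Lk e D x y) : dist x y = D := by
  have h1 := hB y (D • u) (by rw [norm_smul, hu.1, mul_one, Real.norm_of_nonneg hD.le])
  rw [hu.2, norm_smul, hu.1, mul_one, Real.norm_of_nonneg hD.le] at h1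
  rw [dist_comm, h1]

theorem inner_tn (F : Facts e) {D : ℝ} (hD : 0 < D) (hB : InjGE e D)
    (hdiam : ∀ p q : M, dist p q ≤ D) {x y : M} {u τ : TangentSpace 𝓘(ℝ, E) y}
    (hu : u ∈ Lk e D x y) (hτ : τ ∈ Tn e D x y) : inner ℝ u τ = (0 : ℝ) := by
  have h1 := link_tn_nonpos F hD hB hu hτ
  have h2 := link_tn_nonpos F hD hB (link_neg F hD hB hdiam hu) hτ
  rw [inner_neg_left] at h2
  linarith only [h1, h2]

theorem inner_tn_Pl (F : Facts e) {D : ℝ} (hD : 0 < D) (hB : InjGE e D)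
    (hdiam : ∀ p q : M, dist p q ≤ D) {x y : M} {u τ : TangentSpace 𝓘(ℝ, E) y}
    (hu : u ∈ Pl e D x y) (hτ : τ ∈ Tn e D x y) : inner ℝ u τ = (0 : ℝ) := by
  induction hu using Submodule.span_induction with
  | mem x hx => exact inner_tn F hD hB hdiam hx hτ
  | zero => simp
  | add a b _ _ ha hb => rw [inner_add_left, ha, hb, add_zero]
  | smul c a _ ha => rw [inner_smul_left, ha, mul_zero]

/-- every vector of the plane is a multiple of a link vector -/
theorem exists_Lk_of_Pl (F : Facts e) {D : ℝ} (hD : 0 < D) (hB : InjGE e D)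
    (hdiam : ∀ p q : M, dist p q ≤ D) {x y : M} (hxy : dist x y = D)
    {w : TangentSpace 𝓘(ℝ, E) y} (hw : w ∈ Pl e D x y) :
    ∃ u ∈ Lk e D x y, w = ‖w‖ • u := by
  obtain ⟨ρ, hρ, u, hu, τ, hτ, h1, h2⟩ := decomp F hD hB hdiam hxy w
  have h3 : τ ∈ Pl e D x y := by
    have : τ = w - ρ • u := by rw [h1]; abel
    rw [this]
    exact Submodule.sub_mem _ hw (Submodule.smul_mem _ _ (Lk_subset_Pl D x y hu))
  have h4 : τ = 0 := by
    have := inner_tn_Pl F hD hB hdiam h3 hτ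
    rwa [inner_self_eq_zero] at this
  refine ⟨u, hu, ?_⟩
  rw [h4, add_zero] at h1
  have h5 : ‖w‖ = ρ := by rw [h1, norm_smul, hu.1, mul_one, Real.norm_of_nonneg hρ]
  rw [h5]
  exact h1

/-- GREAT SPHERES: the link is the unit sphere of its span -/
theorem mem_Lk_iff (F : Facts e) {D : ℝ} (hD : 0 < D) (hB : InjGE e D)
    (hdiam : ∀ p q : M, dist p q ≤ D) {x y : M} (hxy : dist x y = D)
    {u : TangentSpace 𝓘(ℝ, E) y} : u ∈ Lk e D x y ↔ ‖u‖ = 1 ∧ u ∈ Pl e D x y := by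
  refine ⟨fun h => ⟨h.1, Lk_subset_Pl D x y h⟩, fun h => ?_⟩
  obtain ⟨u', hu', h1⟩ := exists_Lk_of_Pl F hD hB hdiam hxy h.2
  rw [h.1, one_smul] at h1
  rw [h1]
  exact hu'

/-- the tangent directions of the cut locus are the orthogonal complement of the plane -/
theorem mem_Tn_iff (F : Facts e) {D : ℝ} (hD : 0 < D) (hB : InjGE e D)
    (hdiam : ∀ p q : M, dist p q ≤ D) {x y : M} (hxy : dist x y = D)
    {τ : TangentSpace 𝓘(ℝ, E) y} :
    τ ∈ Tn e D x y ↔ ∀ u ∈ Pl e D x y, inner ℝ u τ = (0 : ℝ) := by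
  refine ⟨fun h u hu => inner_tn_Pl F hD hB hdiam hu h, fun h => ?_⟩
  obtain ⟨ρ, hρ, u, hu, τ', hτ', h1, h2⟩ := decomp F hD hB hdiam hxy τ
  have h3 : ρ = 0 := by rw [h2]; exact h u (Lk_subset_Pl D x y hu)
  rw [h3, zero_smul, zero_add] at h1
  rw [h1]
  exact hτ'

/-- different cut points have transversal planes -/
theorem Pl_disjoint (F : Facts e) {D : ℝ} (hD : 0 < D) (hB : InjGE e D)
    (hdiam : ∀ p q : M, dist p q ≤ D) {x z y : M} (hxy : dist x y = D) (hzy : dist z y = D)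
    (hxz : x ≠ z) : Disjoint (Pl e D x y) (Pl e D z y) := by
  rw [Submodule.disjoint_def]
  intro w h1 h2
  by_contra hw
  have hn : 0 < ‖w‖ := norm_pos_iff.2 hw
  have hu : ‖‖w‖⁻¹ • w‖ = 1 := by
    rw [norm_smul, norm_inv, norm_norm, inv_mul_cancel₀ hn.ne']
  have h3 := (mem_Lk_iff F hD hB hdiam hxy (u := ‖w‖⁻¹ • w)).2
    ⟨hu, Submodule.smul_mem _ _ h1⟩
  have h4 := (mem_Lk_iff F hD hB hdiam hzy (u := ‖w‖⁻¹ • w)).2
    ⟨hu, Submodule.smul_mem _ _ h2⟩
  exact hxz (h3.2.symm.trans h4.2)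

theorem fderiv_kap (F : Facts e) {D : ℝ} {x y : M} {v : TangentSpace 𝓘(ℝ, E) x}
    (hy : e x (D • v) = y) (ζ : TangentSpace 𝓘(ℝ, E) x) :
    (fderiv ℝ (kap e D x y) v ζ : E) = D • dE e x (D • v) ζ := by
  have h1 := area_chain (M := M) (V := TangentSpace 𝓘(ℝ, E) x) (T₁ := TangentSpace 𝓘(ℝ, E) x)
    (T₂ := TangentSpace 𝓘(ℝ, E) y) (W := TangentSpace 𝓘(ℝ, E) y)
    (D • ContinuousLinearMap.id ℝ (TangentSpace 𝓘(ℝ, E) x)) (e x) (logMap e y)
    (ContinuousLinearMap.id ℝ (TangentSpace 𝓘(ℝ, E) y)) (ξ := v) (y := y) (by simpa using hy)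
    ((contMDiff_exp_fiber F.isExp x).contMDiffAt)
    (contMDiffAt_logMap F.isExp (area_smoothAt_diag F y))
  have h2 := h1.2 ζ
  have h3 : (fun v' : TangentSpace 𝓘(ℝ, E) x => (ContinuousLinearMap.id ℝ
      (TangentSpace 𝓘(ℝ, E) y)) (logMap e y (e x ((D • ContinuousLinearMap.id ℝ
        (TangentSpace 𝓘(ℝ, E) x)) v')))) = kap e D x y := by
    funext v'
    simp [kap]
  rw [h3] at h2
  have key : ∀ z : M, z = y → ∀ w : E,
      (mfderiv 𝓘(ℝ, E) 𝓘(ℝ, TangentSpace 𝓘(ℝ, E) y) (logMap e y) z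
        (w : TangentSpace 𝓘(ℝ, E) z) : E) = w := by
    rintro z rfl w
    exact area_dlog F z w
  have h5 : (D • dE e x (D • v) ζ : E) = dE e x (D • v) (D • ζ : E) := (dE_smul e x _ _ D).symm
  refine Eq.trans h2 ?_
  rw [h5]
  have h6 : e x ((D • ContinuousLinearMap.id ℝ (TangentSpace 𝓘(ℝ, E) x)) v) = y := by
    simpa using hy
  exact key _ h6 (dE e x (D • v) (D • ζ : E))

/-- the kernel of the differential of `exp_x` at `D v` -/
def Kr (e : ∀ x : M, TangentSpace 𝓘(ℝ, E) x → M) (D : ℝ) (x : M) (v : TangentSpace 𝓘(ℝ, E) x) :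
    Submodule ℝ (TangentSpace 𝓘(ℝ, E) x) :=
  LinearMap.ker ((dEc e x (D • v)) : TangentSpace 𝓘(ℝ, E) x →ₗ[ℝ] TangentSpace 𝓘(ℝ, E) (e x (D • v)))

theorem mem_Kr {D : ℝ} {x : M} {v w : TangentSpace 𝓘(ℝ, E) x} :
    w ∈ Kr e D x v ↔ (dE e x (D • v) w : E) = 0 := Iff.rfl

theorem inner_of_mem_Kr (F : Facts e) {D : ℝ} {x : M} {v w : TangentSpace 𝓘(ℝ, E) x}
    (hv : ‖v‖ = 1) (hw : w ∈ Kr e D x v) : inner ℝ v w = (0 : ℝ) := by
  have h1 := taylor_gauss F x (v : E) hv (w : E) D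
  have h3 : ip (e x (D • (v : E) : E)) 0 (dE e x (D • (v : E)) (v : E)) = 0 :=
    inner_zero_left (𝕜 := ℝ) (E := TangentSpace 𝓘(ℝ, E) (e x (D • (v : E) : E))) _
  have h4 : ip (e x (D • (v : E) : E)) (dE e x (D • (v : E)) (w : E))
      (dE e x (D • (v : E)) (v : E)) = 0 :=
    (congrArg (fun z : E => ip (e x (D • (v : E) : E)) z (dE e x (D • (v : E)) (v : E)))
      (show dE e x (D • (v : E)) (w : E) = 0 from hw)).trans h3
  rw [real_inner_comm]
  exact h1.symm.trans h4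

theorem mem_Pl_of_orth (F : Facts e) {D : ℝ} (hD : 0 < D) (hB : InjGE e D)
    (hdiam : ∀ p q : M, dist p q ≤ D) {x y : M} (hxy : dist x y = D)
    {w : TangentSpace 𝓘(ℝ, E) y} (hw : ∀ τ ∈ Tn e D x y, inner ℝ w τ = (0 : ℝ)) :
    w ∈ Pl e D x y := by
  obtain ⟨ρ, hρ, u, hu, τ, hτ, h1, h2⟩ := decomp F hD hB hdiam hxy w
  have h3 : (inner ℝ τ τ : ℝ) = 0 := by
    have h4 := hw τ hτ
    rw [h1, inner_add_left, inner_smul_left, inner_tn F hD hB hdiam hu hτ, mul_zero,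
      zero_add] at h4
    exact h4
  rw [inner_self_eq_zero] at h3
  rw [h1, h3, add_zero]
  exact Submodule.smul_mem _ _ (Lk_subset_Pl D x y hu)

/-- the nullity is the dimension of the great sphere of links at the other end -/
theorem finrank_Kr_add_one (F : Facts e) {D : ℝ} (hD : 0 < D) (hB : InjGE e D)
    (hdiam : ∀ p q : M, dist p q ≤ D) {x y : M} {v : TangentSpace 𝓘(ℝ, E) x}
    (hv : ‖v‖ = 1) (hy : e x (D • v) = y) :
    finrank ℝ (Kr e D x v) + 1 = finrank ℝ (Pl e D x y) := by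
  obtain ⟨b, hb, hvb⟩ := link_of_dir F (D := D) (y := y) hv hy
  have hb' := link_neg F hD hB hdiam hb
  have hxy := dist_of_Lk hD hB hb
  have hδ : 0 < D / 2 := by linarith
  have hδD : D / 2 < D := by linarith
  have hfr : Module.finrank ℝ (TangentSpace 𝓘(ℝ, E) x) =
      Module.finrank ℝ (TangentSpace 𝓘(ℝ, E) y) := rfl
  set A := fderiv ℝ (kap e D x y) v with hA
  set B := fderiv ℝ (kap e (D - D / 2) x y) v with hBd
  have hBinj : Function.Injective B := by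
    rw [injective_iff_map_eq_zero]
    intro ζ hζ
    exact kap_inj F hδ hδD hB hv hb.1 hvb hζ
  have hAK : ∀ ζ : TangentSpace 𝓘(ℝ, E) x, A ζ = 0 ↔ ζ ∈ Kr e D x v := by
    intro ζ
    rw [mem_Kr]
    have h1 : (A ζ : E) = D • dE e x (D • v) ζ := fderiv_kap F hy ζ
    constructor
    · intro h
      have h2 : D • dE e x (D • v) ζ = 0 := h1.symm.trans h
      exact (smul_eq_zero.1 h2).resolve_left hD.ne'
    · intro h
      have h2 : D • dE e x (D • v) ζ = 0 := by rw [h, smul_zero]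
      exact h1.trans h2
  have hperp : ∀ ζ ∈ Kr e D x v, inner ℝ v ζ = (0 : ℝ) := fun ζ hζ => inner_of_mem_Kr F hv hζ
  have hsup : (ℝ ∙ b) ⊔ (Kr e D x v).map (B : TangentSpace 𝓘(ℝ, E) x →ₗ[ℝ] _) = Pl e D x y := by
    apply le_antisymm
    · refine sup_le ?_ ?_
      · rw [Submodule.span_singleton_le_iff_mem]
        exact Lk_subset_Pl D x y hb
      · rintro _ ⟨ζ, hζ, rfl⟩
        refine mem_Pl_of_orth F hD hB hdiam hxy fun τ hτ => ?_
        exact tn_orth_ker F hδ hδD hB hb hb' hv hvb hτ (hperp ζ hζ) ((hAK ζ).2 hζ)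
    · refine Submodule.span_le.2 fun u hu => ?_
      obtain ⟨ζ, hζ, hAζ, huζ⟩ := lin_alg hfr hv hb.1
        (A := A) (B := B)
        (fun ζ η hζ hη => kap_sym F hδ hδD hB hv hb.1 hvb hζ hη)
        (fun ζ hζ => kap_orth F hδ hδD hB hv hb.1 hvb hζ)
        (fun ζ hζ => kap_orth_link F hD hB hv hb.1 hvb hb hζ)
        (fun ζ h0 => kap_inj F hδ hδD hB hv hb.1 hvb h0)
        (fun ζ hζ => kap_orth_link F hD hB hv hb.1 hvb hu hζ)
      rw [SetLike.mem_coe, huζ]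
      refine Submodule.add_mem_sup (Submodule.smul_mem _ _ (Submodule.mem_span_singleton_self b)) ?_
      exact ⟨ζ, (hAK ζ).1 hAζ, rfl⟩
  have hinf : (ℝ ∙ b) ⊓ (Kr e D x v).map (B : TangentSpace 𝓘(ℝ, E) x →ₗ[ℝ] _) = ⊥ := by
    rw [eq_bot_iff]
    rintro z ⟨h1, ζ, hζ, rfl⟩
    obtain ⟨c, hc⟩ := Submodule.mem_span_singleton.1 h1
    have h2 := kap_orth F hδ hδD hB hv hb.1 hvb (hperp ζ hζ)
    have h3 : (inner ℝ b (c • b) : ℝ) = 0 := by
      rw [hc]
      exact h2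
    rw [inner_smul_right, real_inner_self_eq_norm_sq, hb.1] at h3
    have h4 : c = 0 := by linarith only [h3]
    rw [h4, zero_smul] at hc
    rw [Submodule.mem_bot, ← hc]
  have h5 := Submodule.finrank_sup_add_finrank_inf_eq (ℝ ∙ b)
    ((Kr e D x v).map (B : TangentSpace 𝓘(ℝ, E) x →ₗ[ℝ] _))
  rw [hsup, hinf, finrank_bot, add_zero, finrank_span_singleton] at h5
  · have h6 := (Submodule.equivMapOfInjective
      (B : TangentSpace 𝓘(ℝ, E) x →ₗ[ℝ] TangentSpace 𝓘(ℝ, E) y) hBinj (Kr e D x v)).finrank_eq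
    rw [h5, ← h6, add_comm]
  · intro h0
    have h6 := hb.1
    rw [h0, norm_zero] at h6
    exact zero_ne_one h6

/-- the directions of the great sphere are in the kernel -/
theorem mem_Kr_of_Pl (F : Facts e) {D : ℝ} (hD : 0 < D) (hB : InjGE e D)
    (hdiam : ∀ p q : M, dist p q ≤ D) {x y : M} {v w : TangentSpace 𝓘(ℝ, E) x}
    (hv : v ∈ Lk e D y x) (hw : w ∈ Pl e D y x) (hvw : inner ℝ v w = (0 : ℝ)) :
    w ∈ Kr e D x v := by
  have hyx := dist_of_Lk hD hB hv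
  rcases eq_or_ne w 0 with rfl | hw0
  · exact Submodule.zero_mem _
  have hn : 0 < ‖w‖ := norm_pos_iff.2 hw0
  set z : TangentSpace 𝓘(ℝ, E) x := ‖w‖⁻¹ • w with hz
  have hzn : ‖z‖ = 1 := by
    rw [hz, norm_smul, norm_inv, norm_norm, inv_mul_cancel₀ hn.ne']
  have hvz : inner ℝ v z = (0 : ℝ) := by rw [hz, inner_smul_right, hvw, mul_zero]
  have hzP : z ∈ Pl e D y x := Submodule.smul_mem _ _ hw
  have hc : ∀ θ : ℝ, e x (D • (Real.cos θ • v + Real.sin θ • z)) = y := by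
    intro θ
    refine ((mem_Lk_iff F hD hB hdiam hyx).2 ⟨?_, ?_⟩).2
    · have h1 : ‖Real.cos θ • v + Real.sin θ • z‖ ^ 2 = 1 := by
        rw [norm_add_sq_real, norm_smul, norm_smul, hv.1, hzn, inner_smul_left, inner_smul_right,
          hvz]
        simp
      nlinarith only [h1, norm_nonneg (Real.cos θ • v + Real.sin θ • z)]
    · exact Submodule.add_mem _ (Submodule.smul_mem _ _ (Lk_subset_Pl D y x hv))
        (Submodule.smul_mem _ _ hzP)
  have hder : HasDerivAt (fun θ : ℝ => D • (Real.cos θ • v + Real.sin θ • z)) (D • z) 0 := by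
    have h1 := ((Real.hasDerivAt_cos 0).smul_const v).add ((Real.hasDerivAt_sin 0).smul_const z)
    have h2 : HasDerivAt (fun θ : ℝ => D • (Real.cos θ • v + Real.sin θ • z))
      (D • (-Real.sin 0 • v + Real.cos 0 • z)) 0 := h1.const_smul D
    have h3 : D • (-Real.sin 0 • v + Real.cos 0 • z) = D • z := by simp
    rw [h3] at h2
    exact h2
  have h3 := mfderiv_exp_curve F.isExp x hder
  have h4 : (fun θ : ℝ => e x (D • (Real.cos θ • v + Real.sin θ • z))) = fun _ => y := by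
    funext θ
    exact hc θ
  have h5 : (mfderiv 𝓘(ℝ, ℝ) 𝓘(ℝ, E) (fun θ : ℝ => e x (D • (Real.cos θ • v + Real.sin θ • z)))
      0 (1 : ℝ) : E) = 0 := by
    rw [mfderiv_congr_curve h4 0, mfderiv_const]
    rfl
  rw [h5] at h3
  have h6 : (dE e x (D • v) (D • z) : E) = 0 := by
    have h7 : D • (Real.cos 0 • v + Real.sin 0 • z) = D • v := by simp
    rw [h7] at h3
    exact h3.symm
  have h8 : z ∈ Kr e D x v := by
    rw [mem_Kr]
    have h9 : (dE e x (D • v) (D • z) : E) = D • dE e x (D • v) z := dE_smul e x _ _ D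
    rw [h9] at h6
    exact (smul_eq_zero.1 h6).resolve_left hD.ne'
  have h10 : w = ‖w‖ • z := by rw [hz, smul_smul, mul_inv_cancel₀ hn.ne', one_smul]
  rw [h10]
  exact Submodule.smul_mem _ _ h8

theorem finrank_Pl_le (F : Facts e) {D : ℝ} (hD : 0 < D) (hB : InjGE e D)
    (hdiam : ∀ p q : M, dist p q ≤ D) {x y : M} {v : TangentSpace 𝓘(ℝ, E) x}
    (hv : v ∈ Lk e D y x) : finrank ℝ (Pl e D y x) ≤ finrank ℝ (Kr e D x v) + 1 := by
  have hle : Pl e D y x ≤ (ℝ ∙ v) ⊔ Kr e D x v := by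
    intro w hw
    have h1 : w = (inner ℝ v w : ℝ) • v + (w - (inner ℝ v w : ℝ) • v) := by abel
    rw [h1]
    refine Submodule.add_mem_sup (Submodule.smul_mem _ _ (Submodule.mem_span_singleton_self v)) ?_
    refine mem_Kr_of_Pl F hD hB hdiam hv ?_ ?_
    · exact Submodule.sub_mem _ hw (Submodule.smul_mem _ _ (Lk_subset_Pl D y x hv))
    · rw [inner_sub_right, inner_smul_right, real_inner_self_eq_norm_sq, hv.1]
      ring
  have h2 := Submodule.finrank_mono hle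
  have h3 := Submodule.finrank_add_le_finrank_add_finrank (ℝ ∙ v) (Kr e D x v)
  have h4 : finrank ℝ (ℝ ∙ v) ≤ 1 := by
    have h5 := finrank_span_le_card (R := ℝ) ({v} : Set (TangentSpace 𝓘(ℝ, E) x))
    simpa using h5
  omega

theorem exists_Lk (F : Facts e) {D : ℝ} (hD : 0 < D) {x y : M} (hxy : dist x y = D) :
    ∃ v : TangentSpace 𝓘(ℝ, E) x, v ∈ Lk e D y x := by
  obtain ⟨v, hv, hdv⟩ := F.hopfRinow x y
  refine ⟨D⁻¹ • v, ?_, ?_⟩
  · rw [norm_smul, ← hdv, hxy, norm_inv, Real.norm_of_nonneg hD.le, inv_mul_cancel₀ hD.ne']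
  · rw [smul_smul, mul_inv_cancel₀ hD.ne', one_smul, hv]

/-- the two planes of a cut pair have the same dimension -/
theorem finrank_Pl_comm (F : Facts e) {D : ℝ} (hD : 0 < D) (hB : InjGE e D)
    (hdiam : ∀ p q : M, dist p q ≤ D) {x y : M} (hxy : dist x y = D) :
    finrank ℝ (Pl e D x y) = finrank ℝ (Pl e D y x) := by
  have key : ∀ {x y : M}, dist x y = D → finrank ℝ (Pl e D y x) ≤ finrank ℝ (Pl e D x y) := by
    intro x y hxy
    obtain ⟨v, hv⟩ := exists_Lk F hD hxy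
    rw [← finrank_Kr_add_one F hD hB hdiam hv.1 hv.2]
    exact finrank_Pl_le F hD hB hdiam hv
  exact le_antisymm (key (by rwa [dist_comm])) (key hxy)

/-- the kernel of `d exp_x` at `D v` is the orthogonal complement of `v` in the plane -/
theorem mem_Kr_iff (F : Facts e) {D : ℝ} (hD : 0 < D) (hB : InjGE e D)
    (hdiam : ∀ p q : M, dist p q ≤ D) {x y : M} {v w : TangentSpace 𝓘(ℝ, E) x}
    (hv : v ∈ Lk e D y x) :
    w ∈ Kr e D x v ↔ w ∈ Pl e D y x ∧ inner ℝ v w = (0 : ℝ) := by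
  have hyx := dist_of_Lk hD hB hv
  have hle : Kr e D x v ≤ Pl e D y x := by
    have h1 : Pl e D y x ≤ (ℝ ∙ v) ⊔ Kr e D x v := by
      intro w hw
      have h1 : w = (inner ℝ v w : ℝ) • v + (w - (inner ℝ v w : ℝ) • v) := by abel
      rw [h1]
      refine Submodule.add_mem_sup
        (Submodule.smul_mem _ _ (Submodule.mem_span_singleton_self v)) ?_
      refine mem_Kr_of_Pl F hD hB hdiam hv ?_ ?_
      · exact Submodule.sub_mem _ hw (Submodule.smul_mem _ _ (Lk_subset_Pl D y x hv))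
      · rw [inner_sub_right, inner_smul_right, real_inner_self_eq_norm_sq, hv.1]
        ring
    have h2 : finrank ℝ ((ℝ ∙ v) ⊔ Kr e D x v : Submodule ℝ (TangentSpace 𝓘(ℝ, E) x)) ≤
        finrank ℝ (Pl e D y x) := by
      have h3 := Submodule.finrank_add_le_finrank_add_finrank (ℝ ∙ v) (Kr e D x v)
      have h4 : finrank ℝ (ℝ ∙ v) ≤ 1 := by
        have h5 := finrank_span_le_card (R := ℝ) ({v} : Set (TangentSpace 𝓘(ℝ, E) x))
        simpa using h5
      have h5 := finrank_Kr_add_one F hD hB hdiam hv.1 hv.2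
      have h6 := finrank_Pl_comm F hD hB hdiam (x := x) (y := y) (by rwa [dist_comm])
      omega
    have h3 := Submodule.eq_of_le_of_finrank_le h1 h2
    rw [h3]
    exact le_sup_right
  exact ⟨fun h => ⟨hle h, inner_of_mem_Kr F hv.1 h⟩,
    fun h => mem_Kr_of_Pl F hD hB hdiam hv h.1 h.2⟩

end

end

end Vale.Agent.P231.H775
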