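import Mathlib
import Vale.Agent.P231.Bd3.B5

/-! P231: smooth vector fields along smooth maps of vector spaces into the manifold. -/

set_option maxSynthPendingDepth 3
set_option linter.unusedSectionVars false

open Bundle Manifold Set Filter Module
open scoped ContDiff Manifold Topology

namespace Vale.Agent.P231.H775

open Vale.Agent.P234 Vale.Agent.P231

noncomputable section

variable {E : Type*} [NormedAddCommGroup E] [NormedSpace ℝ E] [FiniteDimensional ℝ E]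
  {M : Type*} [MetricSpace M] [ChartedSpace E M] [IsManifold 𝓘(ℝ, E) ∞ M]
  [RiemannianBundle (fun x : M => TangentSpace 𝓘(ℝ, E) x)]
  [IsContMDiffRiemannianBundle 𝓘(ℝ, E) ∞ E (fun x : M => TangentSpace 𝓘(ℝ, E) x)]
  {e : ∀ x : M, TangentSpace 𝓘(ℝ, E) x → M}
  {V : Type*} [NormedAddCommGroup V] [NormedSpace ℝ V]

/-- `u` is a smooth vector field along `f` at `s` -/
def SmV (f : V → M) (u : ∀ s, TangentSpace 𝓘(ℝ, E) (f s)) (s : V) : Prop :=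
  ContMDiffAt 𝓘(ℝ, V) 𝓘(ℝ, E).tangent ∞ (fun s => (⟨f s, u s⟩ : TangentBundle 𝓘(ℝ, E) M)) s

theorem SmV.base {f : V → M} {u : ∀ s, TangentSpace 𝓘(ℝ, E) (f s)} {s : V} (h : SmV f u s) :
    ContMDiffAt 𝓘(ℝ, V) 𝓘(ℝ, E) ∞ f s :=
  ((contMDiff_proj (TangentSpace 𝓘(ℝ, E) : M → Type _)).contMDiffAt).comp s h

theorem smV_iff {f : V → M} {u : ∀ s, TangentSpace 𝓘(ℝ, E) (f s)} {s : V} (x₀ : M)
    (hx : f s ∈ (extChartAt 𝓘(ℝ, E) x₀).source) :
    SmV f u s ↔ ContMDiffAt 𝓘(ℝ, V) 𝓘(ℝ, E) ∞ f s ∧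
      ContDiffAt ℝ ∞ (fun s => crd x₀ (f s) (u s)) s := by
  constructor
  · intro h
    have hf := h.base
    refine ⟨hf, ?_⟩
    have hmem : (⟨f s, u s⟩ : TangentBundle 𝓘(ℝ, E) M) ∈ (tchart E x₀).source :=
      (mem_tchart_source x₀ _).2 (exm_mem_source hx)
    have h1 : ContMDiffAt 𝓘(ℝ, E).tangent 𝓘(ℝ, E × E) ∞ (tchart E x₀)
        (⟨f s, u s⟩ : TangentBundle 𝓘(ℝ, E) M) :=
      (contMDiffOn_tchart x₀).contMDiffAt ((isOpen_tchart_source x₀).mem_nhds hmem)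
    have h2 : ContMDiffAt 𝓘(ℝ, V) 𝓘(ℝ, E × E) ∞
        (fun s => tchart E x₀ (⟨f s, u s⟩ : TangentBundle 𝓘(ℝ, E) M)) s := h1.comp s h
    have h3 : ContDiffAt ℝ ∞
        (fun s => (tchart E x₀ (⟨f s, u s⟩ : TangentBundle 𝓘(ℝ, E) M)).2) s :=
      h2.contDiffAt.snd
    refine h3.congr_of_eventuallyEq ?_
    filter_upwards [hf.continuousAt.eventually ((isOpen_extChartAt_source x₀).mem_nhds hx)]
      with s' hs'
    rw [tchart_apply x₀ hs']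
  · rintro ⟨hf, hu⟩
    have h1 : ContMDiffAt 𝓘(ℝ, V) 𝓘(ℝ, E) ∞ (fun s => extChartAt 𝓘(ℝ, E) x₀ (f s)) s :=
      (contMDiffAt_extChartAt' (exm_mem_source hx)).comp s hf
    have h2 : ContDiffAt ℝ ∞ (fun s => (extChartAt 𝓘(ℝ, E) x₀ (f s), crd x₀ (f s) (u s))) s :=
      h1.contDiffAt.prodMk hu
    have hmem : (extChartAt 𝓘(ℝ, E) x₀ (f s), crd x₀ (f s) (u s)) ∈ (tchart E x₀).target := by
      rw [mem_tchart_target]
      exact (chartAt E x₀).map_source (exm_mem_source hx)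
    have h3 : ContMDiffAt 𝓘(ℝ, E × E) 𝓘(ℝ, E).tangent ∞ (tchart E x₀).symm
        (extChartAt 𝓘(ℝ, E) x₀ (f s), crd x₀ (f s) (u s)) :=
      (contMDiffOn_tchart_symm x₀).contMDiffAt ((isOpen_tchart_target x₀).mem_nhds hmem)
    have h4 : ContMDiffAt 𝓘(ℝ, V) 𝓘(ℝ, E).tangent ∞
        (fun s => (tchart E x₀).symm (extChartAt 𝓘(ℝ, E) x₀ (f s), crd x₀ (f s) (u s))) s :=
      h3.comp s h2.contMDiffAt
    refine h4.congr_of_eventuallyEq ?_
    filter_upwards [hf.continuousAt.eventually ((isOpen_extChartAt_source x₀).mem_nhds hx)]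
      with s' hs'
    rw [tchart_symm_vec x₀ hs', vec_crd x₀ hs']

theorem SmV.congr {f : V → M} {u w : ∀ s, TangentSpace 𝓘(ℝ, E) (f s)} {s : V} (h : SmV f u s)
    (huw : ∀ᶠ s' in 𝓝 s, u s' = w s') : SmV f w s := by
  refine ContMDiffAt.congr_of_eventuallyEq h ?_
  filter_upwards [huw] with s' hs'
  rw [hs']

theorem SmV.add {f : V → M} {u w : ∀ s, TangentSpace 𝓘(ℝ, E) (f s)} {s : V} (hu : SmV f u s)
    (hw : SmV f w s) : SmV f (fun s => u s + w s) s := by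
  rw [smV_iff (f s) (mem_extChartAt_source (f s))] at hu hw ⊢
  refine ⟨hu.1, ?_⟩
  simp only [map_add]
  exact hu.2.add hw.2

theorem SmV.smul {f : V → M} {u : ∀ s, TangentSpace 𝓘(ℝ, E) (f s)} {s : V} {c : V → ℝ}
    (hc : ContDiffAt ℝ ∞ c s) (hu : SmV f u s) : SmV f (fun s => c s • u s) s := by
  rw [smV_iff (f s) (mem_extChartAt_source (f s))] at hu ⊢
  refine ⟨hu.1, ?_⟩
  simp only [map_smul]
  exact hc.smul hu.2

theorem SmV.sum {ι : Type*} (t : Finset ι) {f : V → M}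
    {u : ι → ∀ s, TangentSpace 𝓘(ℝ, E) (f s)} {s : V}
    (hf : ContMDiffAt 𝓘(ℝ, V) 𝓘(ℝ, E) ∞ f s) (hu : ∀ i ∈ t, SmV f (u i) s) :
    SmV f (fun s => ∑ i ∈ t, u i s) s := by
  rw [smV_iff (f s) (mem_extChartAt_source (f s))]
  refine ⟨hf, ?_⟩
  simp only [map_sum]
  exact ContDiffAt.sum fun i hi => ((smV_iff (f s) (mem_extChartAt_source (f s))).1 (hu i hi)).2

theorem smV_vec {f : V → M} {s : V} (x₀ : M) (hx : f s ∈ (extChartAt 𝓘(ℝ, E) x₀).source)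
    (hf : ContMDiffAt 𝓘(ℝ, V) 𝓘(ℝ, E) ∞ f s) {ξ : V → E} (hξ : ContDiffAt ℝ ∞ ξ s) :
    SmV f (fun s => vec x₀ (f s) (ξ s)) s := by
  rw [smV_iff x₀ hx]
  refine ⟨hf, hξ.congr_of_eventuallyEq ?_⟩
  filter_upwards [hf.continuousAt.eventually ((isOpen_extChartAt_source x₀).mem_nhds hx)]
    with s' hs'
  rw [crd_vec x₀ hs']

theorem SmV.comp {V' : Type*} [NormedAddCommGroup V'] [NormedSpace ℝ V'] {f : V → M}
    {u : ∀ s, TangentSpace 𝓘(ℝ, E) (f s)} {h : V' → V} {s : V'} (hu : SmV f u (h s))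
    (hh : ContDiffAt ℝ ∞ h s) : SmV (fun s => f (h s)) (fun s => u (h s)) s :=
  ContMDiffAt.comp s hu hh.contMDiffAt

theorem SmV.inner {f : V → M} {u w : ∀ s, TangentSpace 𝓘(ℝ, E) (f s)} {s : V} (hu : SmV f u s)
    (hw : SmV f w s) : ContDiffAt ℝ ∞ (fun s => (inner ℝ (u s) (w s) : ℝ)) s := by
  have h := ContMDiffAt.inner_bundle (IB := 𝓘(ℝ, E)) (F := E)
    (E := fun x : M => TangentSpace 𝓘(ℝ, E) x) (IM := 𝓘(ℝ, V)) (n := ∞) (b := f) (v := u) (w := w)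
    (x := s) hu hw
  exact h.contDiffAt

theorem SmV.norm_sq {f : V → M} {u : ∀ s, TangentSpace 𝓘(ℝ, E) (f s)} {s : V} (hu : SmV f u s) :
    ContDiffAt ℝ ∞ (fun s => ‖u s‖ ^ 2) s := by
  have h := hu.inner hu
  simp only [real_inner_self_eq_norm_sq] at h
  exact h

theorem SmV.exp (he : IsExp e) {f : V → M} {u : ∀ s, TangentSpace 𝓘(ℝ, E) (f s)} {s : V}
    (hu : SmV f u s) : ContMDiffAt 𝓘(ℝ, V) 𝓘(ℝ, E) ∞ (fun s => e (f s) (u s)) s :=
  (he.smooth.contMDiffAt (x := (⟨f s, u s⟩ : TangentBundle 𝓘(ℝ, E) M))).comp s hu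

end

end Vale.Agent.P231.H775
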