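import Mathlib
import Vale.Agent.P231.H775.Link
import Vale.Agent.P231.H775.SmV
import Vale.Agent.P231.H775.Ift

/-! P231: smooth local lifts of plots of the set of cut pairs to the unit tangent bundle. -/

set_option maxSynthPendingDepth 3
set_option linter.unusedSectionVars false

open Bundle Manifold Set Filter Module
open scoped ContDiff Manifold Topology

namespace Vale.Agent.P231.H775

open Vale.Agent.P234 Vale.Agent.P231

noncomputable section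

variable {E : Type*} [NormedAddCommGroup E] [NormedSpace ℝ E] [FiniteDimensional ℝ E]
  {M : Type*} [MetricSpace M] [ChartedSpace E M] [IsManifold 𝓘(ℝ, E) ∞ M]
  [RiemannianBundle (fun x : M => TangentSpace 𝓘(ℝ, E) x)]
  [IsContMDiffRiemannianBundle 𝓘(ℝ, E) ∞ E (fun x : M => TangentSpace 𝓘(ℝ, E) x)]
  {e : ∀ x : M, TangentSpace 𝓘(ℝ, E) x → M}
  {V : Type*} [NormedAddCommGroup V] [NormedSpace ℝ V]

/-- the orthogonal projection on the kernel, in coordinates -/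
def kapK (e : ∀ x : M, TangentSpace 𝓘(ℝ, E) x → M) (D : ℝ) (x : M) (v : TangentSpace 𝓘(ℝ, E) x) :
    E →L[ℝ] Kr e D x v :=
  (Kr e D x v).orthogonalProjectionOnto.comp (vec x x)

/-- the system of equations of the lift -/
def lphi (e : ∀ x : M, TangentSpace 𝓘(ℝ, E) x → M) (D : ℝ) (f g : V → M) (s₀ : V)
    (u₀ : TangentSpace 𝓘(ℝ, E) (f s₀)) (p : V × E) : ℝ × Kr e D (f s₀) u₀ × E :=
  (‖vec (f s₀) (f p.1) p.2‖ ^ 2 - 1, kapK e D (f s₀) u₀ p.2,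
    extChartAt 𝓘(ℝ, E) (g s₀) (e (f p.1) (D • vec (f s₀) (f p.1) p.2)) -
      extChartAt 𝓘(ℝ, E) (g s₀) (g p.1))

theorem lphi_contDiffAt (he : IsExp e) {D : ℝ} {f g : V → M} {s₀ : V}
    {u₀ : TangentSpace 𝓘(ℝ, E) (f s₀)} (hf : ∀ᶠ s in 𝓝 s₀, ContMDiffAt 𝓘(ℝ, V) 𝓘(ℝ, E) ∞ f s)
    (hg : ∀ᶠ s in 𝓝 s₀, ContMDiffAt 𝓘(ℝ, V) 𝓘(ℝ, E) ∞ g s)
    (hu : e (f s₀) (D • u₀) = g s₀) :
    ∀ᶠ p in 𝓝 (s₀, crd (f s₀) (f s₀) u₀), ContDiffAt ℝ ∞ (lphi e D f g s₀ u₀) p := by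
  have hfst : Tendsto (Prod.fst : V × E → V) (𝓝 (s₀, crd (f s₀) (f s₀) u₀)) (𝓝 s₀) :=
    continuous_fst.tendsto' _ _ rfl
  have h1 : ∀ᶠ p in 𝓝 (s₀, crd (f s₀) (f s₀) u₀),
      ContMDiffAt 𝓘(ℝ, V) 𝓘(ℝ, E) ∞ f p.1 ∧ f p.1 ∈ (extChartAt 𝓘(ℝ, E) (f s₀)).source ∧
      ContMDiffAt 𝓘(ℝ, V) 𝓘(ℝ, E) ∞ g p.1 ∧ g p.1 ∈ (extChartAt 𝓘(ℝ, E) (g s₀)).source := by
    have h2 := hf.self_of_nhds.continuousAt.eventually
      ((isOpen_extChartAt_source (I := 𝓘(ℝ, E)) (f s₀)).mem_nhds (mem_extChartAt_source (f s₀)))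
    have h3 := hg.self_of_nhds.continuousAt.eventually
      ((isOpen_extChartAt_source (I := 𝓘(ℝ, E)) (g s₀)).mem_nhds (mem_extChartAt_source (g s₀)))
    exact hfst.eventually (hf.and (h2.and (hg.and h3)))
  have hsm : ∀ᶠ p in 𝓝 (s₀, crd (f s₀) (f s₀) u₀),
      SmV (V := V × E) (fun p : V × E => f p.1) (fun p => vec (f s₀) (f p.1) p.2) p := by
    filter_upwards [h1] with p hp
    refine smV_vec (V := V × E) (f s₀) hp.2.1 ?_ contDiffAt_snd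
    exact hp.1.comp p contDiffAt_fst.contMDiffAt
  have hex : ∀ᶠ p in 𝓝 (s₀, crd (f s₀) (f s₀) u₀), ContMDiffAt 𝓘(ℝ, V × E) 𝓘(ℝ, E) ∞
      (fun p : V × E => e (f p.1) (D • vec (f s₀) (f p.1) p.2)) p := by
    filter_upwards [hsm] with p hp
    exact (SmV.smul (c := fun _ => D) contDiffAt_const hp).exp he
  have hexs : ∀ᶠ p in 𝓝 (s₀, crd (f s₀) (f s₀) u₀),
      e (f p.1) (D • vec (f s₀) (f p.1) p.2) ∈ (extChartAt 𝓘(ℝ, E) (g s₀)).source := by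
    have h4 := hex.self_of_nhds.continuousAt
    have h5 : e (f s₀) (D • vec (f s₀) (f s₀) (crd (f s₀) (f s₀) u₀)) = g s₀ := by
      rw [vec_crd (f s₀) (mem_extChartAt_source (f s₀)), hu]
    refine h4.eventually ((isOpen_extChartAt_source (I := 𝓘(ℝ, E)) (g s₀)).mem_nhds ?_)
    simp only
    rw [h5]
    exact mem_extChartAt_source (g s₀)
  filter_upwards [h1, hsm, hex, hexs] with p hp h6 h7 h8
  refine ContDiffAt.prodMk (h6.norm_sq.sub contDiffAt_const) (ContDiffAt.prodMk ?_ ?_)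
  · exact (kapK e D (f s₀) u₀).contDiff.contDiffAt.comp p contDiffAt_snd
  · have h9 : ContMDiffAt 𝓘(ℝ, V × E) 𝓘(ℝ, E) ∞ (fun p : V × E =>
        extChartAt 𝓘(ℝ, E) (g s₀) (e (f p.1) (D • vec (f s₀) (f p.1) p.2))) p :=
      (contMDiffAt_extChartAt' (exm_mem_source h8)).comp p h7
    have h10 : ContMDiffAt 𝓘(ℝ, V) 𝓘(ℝ, E) ∞ (fun s : V => extChartAt 𝓘(ℝ, E) (g s₀) (g s))
        p.1 :=
      (contMDiffAt_extChartAt' (exm_mem_source hp.2.2.2)).comp p.1 hp.2.2.1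
    exact h9.contDiffAt.sub (h10.contDiffAt.comp p contDiffAt_fst)

/-- a curve in the manifold with vanishing coordinate derivative has vanishing velocity -/
theorem dE_eq_zero_of_chart (he : IsExp e) {D : ℝ} {x y : M} {u w : TangentSpace 𝓘(ℝ, E) x}
    (hy : e x (D • u) = y)
    (hd : HasDerivAt (fun t : ℝ => extChartAt 𝓘(ℝ, E) y (e x (D • (u + t • w)))) 0 0) :
    (dE e x (D • u) (D • w) : E) = 0 := by
  have hc : HasDerivAt (fun t : ℝ => D • (u + t • w)) (D • w) 0 := by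
    have h1 : HasDerivAt (fun t : ℝ => t • w) ((1 : ℝ) • w) 0 :=
      (hasDerivAt_id (0 : ℝ)).smul_const w
    have h2 : HasDerivAt (fun t : ℝ => D • (u + t • w)) (D • ((1 : ℝ) • w)) 0 :=
      (h1.const_add u).const_smul D
    rw [one_smul] at h2
    exact h2
  have h1 := mfderiv_exp_curve he x hc
  have h0 : D • (u + (0 : ℝ) • w) = D • u := by rw [zero_smul, add_zero]
  have hcont : ContinuousAt (fun t : ℝ => e x (D • (u + t • w))) 0 :=
    (refl_exp_curve_mdiff he x hc).continuousAt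
  set q : ℝ → E := fun t => extChartAt 𝓘(ℝ, E) y (e x (D • (u + t • w))) with hq
  have hq0 : q 0 = extChartAt 𝓘(ℝ, E) y y := by
    simp only [hq]
    rw [h0, hy]
  have hqt : q 0 ∈ (extChartAt 𝓘(ℝ, E) y).target := by
    rw [hq0]
    exact mem_extChartAt_target y
  have h2 := mfderiv_curve_chart y hqt hd.differentiableAt
  rw [hd.deriv, map_zero] at h2
  have h3 : (fun t : ℝ => (extChartAt 𝓘(ℝ, E) y).symm (q t)) =ᶠ[𝓝 0]
      fun t : ℝ => e x (D • (u + t • w)) := by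
    have h4 : e x (D • (u + (0 : ℝ) • w)) ∈ (extChartAt 𝓘(ℝ, E) y).source := by
      rw [h0, hy]
      exact mem_extChartAt_source y
    filter_upwards [hcont.eventually ((isOpen_extChartAt_source (I := 𝓘(ℝ, E)) y).mem_nhds h4)]
      with t ht
    simp only [hq]
    exact (extChartAt 𝓘(ℝ, E) y).left_inv ht
  have h5 : (mfderiv 𝓘(ℝ, ℝ) 𝓘(ℝ, E) (fun t : ℝ => e x (D • (u + t • w))) 0 (1 : ℝ) : E) = 0 := by
    rw [← rel_congr_raw h3]
    exact h2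
  have h6 : (dE e x (D • (u + (0 : ℝ) • w)) (D • w) : E) = 0 := h1.symm.trans h5
  rw [h0] at h6
  exact h6

theorem lphi_injective [CompactSpace M] [ConnectedSpace M] [IsRiemannianManifold 𝓘(ℝ, E) M] (F : Facts e) {D : ℝ} (hD : 0 < D) {f g : V → M} {s₀ : V}
    {u₀ : TangentSpace 𝓘(ℝ, E) (f s₀)} (hf : ∀ᶠ s in 𝓝 s₀, ContMDiffAt 𝓘(ℝ, V) 𝓘(ℝ, E) ∞ f s)
    (hg : ∀ᶠ s in 𝓝 s₀, ContMDiffAt 𝓘(ℝ, V) 𝓘(ℝ, E) ∞ g s)
    (hu : e (f s₀) (D • u₀) = g s₀) (η : E)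
    (hη : fderiv ℝ (lphi e D f g s₀ u₀) (s₀, crd (f s₀) (f s₀) u₀) (0, η) = 0) : η = 0 := by
  have hsrc : f s₀ ∈ (extChartAt 𝓘(ℝ, E) (f s₀)).source := mem_extChartAt_source (f s₀)
  obtain ⟨w, hw⟩ : ∃ w : TangentSpace 𝓘(ℝ, E) (f s₀), w = vec (f s₀) (f s₀) η := ⟨_, rfl⟩
  have hd : HasFDerivAt (lphi e D f g s₀ u₀) (fderiv ℝ (lphi e D f g s₀ u₀)
      (s₀, crd (f s₀) (f s₀) u₀)) (s₀, crd (f s₀) (f s₀) u₀) :=
    (((lphi_contDiffAt F.isExp hf hg hu).self_of_nhds).differentiableAt (by simp)).hasFDerivAt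
  have hc : HasDerivAt (fun t : ℝ => ((s₀, crd (f s₀) (f s₀) u₀ + t • η) : V × E)) (0, η) 0 := by
    have h1 : HasDerivAt (fun t : ℝ => t • η) ((1 : ℝ) • η) 0 :=
      (hasDerivAt_id (0 : ℝ)).smul_const η
    rw [one_smul] at h1
    exact (hasDerivAt_const 0 s₀).prodMk (h1.const_add _)
  have h2 : HasDerivAt (fun t : ℝ => lphi e D f g s₀ u₀ (s₀, crd (f s₀) (f s₀) u₀ + t • η)) 0 0 := by
    have h3 : HasFDerivAt (lphi e D f g s₀ u₀) (fderiv ℝ (lphi e D f g s₀ u₀)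
      (s₀, crd (f s₀) (f s₀) u₀)) (s₀, crd (f s₀) (f s₀) u₀ + (0 : ℝ) • η) := by
      rw [zero_smul, add_zero]
      exact hd
    have h4 := h3.comp_hasDerivAt (0 : ℝ) hc
    rw [hη] at h4
    exact h4
  have hvec : ∀ t : ℝ, vec (f s₀) (f s₀) (crd (f s₀) (f s₀) u₀ + t • η) = u₀ + t • w := by
    intro t
    rw [map_add, map_smul, vec_crd (f s₀) hsrc, hw]
  -- the norm component
  have hn : (inner ℝ u₀ w : ℝ) = 0 := by
    have h3 : HasDerivAt (fun t : ℝ => ‖u₀ + t • w‖ ^ 2 - 1) 0 0 := by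
      have h4 := (hasFDerivAt_fst (𝕜 := ℝ)).comp_hasDerivAt (0 : ℝ) h2
      have h5 : (fun t : ℝ => ‖u₀ + t • w‖ ^ 2 - 1) =
          (Prod.fst ∘ fun t : ℝ => lphi e D f g s₀ u₀ (s₀, crd (f s₀) (f s₀) u₀ + t • η)) := by
        funext t
        simp only [Function.comp_apply, lphi, hvec]
      rw [h5]
      simpa using h4
    have h4 : HasDerivAt (fun t : ℝ => ‖u₀ + t • w‖ ^ 2 - 1) (2 * inner ℝ u₀ w) 0 := by
      have h5 : HasDerivAt (fun t : ℝ => u₀ + t • w) w 0 := by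
        have h6 : HasDerivAt (fun t : ℝ => t • w) ((1 : ℝ) • w) 0 :=
          (hasDerivAt_id (0 : ℝ)).smul_const w
        rw [one_smul] at h6
        exact h6.const_add u₀
      have h7 := h5.norm_sq.sub_const 1
      simpa using h7
    have h5 := h3.unique h4
    linarith only [h5]
  -- the kernel component
  have hk : kapK e D (f s₀) u₀ η = 0 := by
    have h3 : HasDerivAt (fun t : ℝ => kapK e D (f s₀) u₀ (crd (f s₀) (f s₀) u₀ + t • η)) 0 0 := by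
      have h4 := ((hasFDerivAt_fst (𝕜 := ℝ)).comp _ (hasFDerivAt_snd (𝕜 := ℝ))).comp_hasDerivAt
        (0 : ℝ) h2
      have h5 : (fun t : ℝ => kapK e D (f s₀) u₀ (crd (f s₀) (f s₀) u₀ + t • η)) =
          (Prod.fst ∘ Prod.snd) ∘
            fun t : ℝ => lphi e D f g s₀ u₀ (s₀, crd (f s₀) (f s₀) u₀ + t • η) := rfl
      rw [h5]
      have h6 : ((ContinuousLinearMap.fst ℝ (Kr e D (f s₀) u₀) E).comp
          (ContinuousLinearMap.snd ℝ ℝ (Kr e D (f s₀) u₀ × E))) 0 = 0 := map_zero _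
      rw [h6] at h4
      exact h4
    have h4 : HasDerivAt (fun t : ℝ => kapK e D (f s₀) u₀ (crd (f s₀) (f s₀) u₀ + t • η))
        (kapK e D (f s₀) u₀ η) 0 := by
      have h6 : HasDerivAt (fun t : ℝ => t • η) ((1 : ℝ) • η) 0 :=
        (hasDerivAt_id (0 : ℝ)).smul_const η
      rw [one_smul] at h6
      exact (kapK e D (f s₀) u₀).hasFDerivAt.comp_hasDerivAt (0 : ℝ) (h6.const_add _)
    exact (h3.unique h4).symm
  -- the exponential component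
  have he0 : (dE e (f s₀) (D • u₀) (D • w) : E) = 0 := by
    refine dE_eq_zero_of_chart F.isExp hu ?_
    have h4 := ((hasFDerivAt_snd (𝕜 := ℝ)).comp _ (hasFDerivAt_snd (𝕜 := ℝ))).comp_hasDerivAt
      (0 : ℝ) h2
    have h5 : HasDerivAt (fun t : ℝ => extChartAt 𝓘(ℝ, E) (g s₀) (e (f s₀) (D • (u₀ + t • w))) -
        extChartAt 𝓘(ℝ, E) (g s₀) (g s₀)) 0 0 := by
      have h6 : (fun t : ℝ => extChartAt 𝓘(ℝ, E) (g s₀) (e (f s₀) (D • (u₀ + t • w))) -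
          extChartAt 𝓘(ℝ, E) (g s₀) (g s₀)) = (Prod.snd ∘ Prod.snd) ∘
            fun t : ℝ => lphi e D f g s₀ u₀ (s₀, crd (f s₀) (f s₀) u₀ + t • η) := by
        funext t
        simp only [Function.comp_apply, lphi, hvec]
      rw [h6]
      simpa using h4
    simpa using h5
  have hker : w ∈ Kr e D (f s₀) u₀ := by
    rw [mem_Kr]
    have h9 : (dE e (f s₀) (D • u₀) (D • w) : E) = D • dE e (f s₀) (D • u₀) w :=
      dE_smul e (f s₀) _ _ D
    rw [h9] at he0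
    exact (smul_eq_zero.1 he0).resolve_left hD.ne'
  have hw0 : w = 0 := by
    have h3 : ((Kr e D (f s₀) u₀).orthogonalProjectionOnto w : Kr e D (f s₀) u₀) = 0 := by
      rw [hw]
      exact hk
    have h4 := Submodule.orthogonalProjectionOnto_mem_subspace_eq_self
      (K := Kr e D (f s₀) u₀) ⟨w, hker⟩
    rw [h3] at h4
    exact (congrArg Subtype.val h4).symm
  have h5 := crd_vec (f s₀) hsrc η
  rw [← hw, hw0, map_zero] at h5
  exact h5.symm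

section

variable [CompactSpace M] [ConnectedSpace M] [IsRiemannianManifold 𝓘(ℝ, E) M]

theorem exists_unit_ker {W K : Type*} [NormedAddCommGroup W] [NormedSpace ℝ W]
    [AddCommGroup K] [Module ℝ K] [FiniteDimensional ℝ W] [FiniteDimensional ℝ K]
    (P : Submodule ℝ W) (T : W →ₗ[ℝ] K) (h : finrank ℝ K < finrank ℝ P) :
    ∃ w ∈ P, ‖w‖ = 1 ∧ T w = 0 := by
  have h1 : LinearMap.ker (T.comp P.subtype) ≠ ⊥ := by
    exact LinearMap.ker_ne_bot_of_finrank_lt h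
  obtain ⟨⟨w, hw⟩, hwk, hw0⟩ := Submodule.exists_mem_ne_zero_of_ne_bot h1
  have hw1 : w ≠ 0 := fun h2 => hw0 (Subtype.ext h2)
  have hn : 0 < ‖w‖ := norm_pos_iff.2 hw1
  refine ⟨‖w‖⁻¹ • w, Submodule.smul_mem _ _ hw, ?_, ?_⟩
  · rw [norm_smul, norm_inv, norm_norm, inv_mul_cancel₀ hn.ne']
  · have h2 : T w = 0 := hwk
    rw [map_smul, h2, smul_zero]

theorem lphi_eq_zero {D : ℝ} {f g : V → M} {s₀ : V}
    {u₀ : TangentSpace 𝓘(ℝ, E) (f s₀)} {s : V} (hs : f s ∈ (extChartAt 𝓘(ℝ, E) (f s₀)).source)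
    {w : TangentSpace 𝓘(ℝ, E) (f s)} (hw : w ∈ Lk e D (g s) (f s))
    (hk : kapK e D (f s₀) u₀ (crd (f s₀) (f s) w) = 0) :
    lphi e D f g s₀ u₀ (s, crd (f s₀) (f s) w) = 0 := by
  unfold lphi
  simp only
  rw [vec_crd (f s₀) hs, hw.1, hk, hw.2, sub_self]
  norm_num

theorem lphi_exists (F : Facts e) {D : ℝ} (hD : 0 < D) (hB : InjGE e D)
    (hdiam : ∀ p q : M, dist p q ≤ D) {l : ℕ}
    (hl : ∀ x y : M, dist x y = D → finrank ℝ (Pl e D x y) = l + 1) {f g : V → M} {s₀ : V}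
    {u₀ : TangentSpace 𝓘(ℝ, E) (f s₀)} (hf : ContinuousAt f s₀) (hg : ContinuousAt g s₀)
    (hfg : ∀ᶠ s in 𝓝 s₀, dist (f s) (g s) = D) (hu : u₀ ∈ Lk e D (g s₀) (f s₀)) :
    ∀ U ∈ 𝓝 (crd (f s₀) (f s₀) u₀), ∀ᶠ s in 𝓝 s₀, ∃ ξ ∈ U, lphi e D f g s₀ u₀ (s, ξ) = 0 := by
  intro U hU
  by_contra hcon
  have hsrc : f s₀ ∈ (extChartAt 𝓘(ℝ, E) (f s₀)).source := mem_extChartAt_source (f s₀)
  have hfs : ∀ᶠ s in 𝓝 s₀, f s ∈ (extChartAt 𝓘(ℝ, E) (f s₀)).source :=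
    hf.eventually ((isOpen_extChartAt_source (I := 𝓘(ℝ, E)) (f s₀)).mem_nhds hsrc)
  have hfreq := (Filter.not_eventually.1 hcon).and_eventually (hfs.and hfg)
  obtain ⟨ns, hns, hall⟩ := Filter.exists_seq_forall_of_frequently hfreq
  have hKr : finrank ℝ (Kr e D (f s₀) u₀) = l := by
    have h1 := finrank_Kr_add_one F hD hB hdiam hu.1 hu.2
    have h2 := hl (f s₀) (g s₀) (by rw [dist_comm]; exact dist_of_Lk hD hB hu)
    omega
  have hex : ∀ k, ∃ w : TangentSpace 𝓘(ℝ, E) (f (ns k)), w ∈ Pl e D (g (ns k)) (f (ns k)) ∧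
      ‖w‖ = 1 ∧ kapK e D (f s₀) u₀ (crd (f s₀) (f (ns k)) w) = 0 := by
    intro k
    have h1 : finrank ℝ (Pl e D (g (ns k)) (f (ns k))) = l + 1 :=
      hl _ _ (by rw [dist_comm]; exact (hall k).2.2)
    obtain ⟨w, hw1, hw2, hw3⟩ := exists_unit_ker (Pl e D (g (ns k)) (f (ns k)))
      (((kapK e D (f s₀) u₀).comp (crd (f s₀) (f (ns k)))) :
        TangentSpace 𝓘(ℝ, E) (f (ns k)) →ₗ[ℝ] Kr e D (f s₀) u₀) (by omega)
    exact ⟨w, hw1, hw2, hw3⟩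
  choose w hwP hwn hwk using hex
  have hwL : ∀ k, w k ∈ Lk e D (g (ns k)) (f (ns k)) := fun k =>
    (mem_Lk_iff F hD hB hdiam (by rw [dist_comm]; exact (hall k).2.2)).2 ⟨hwn k, hwP k⟩
  obtain ⟨z₀, w₀, φ, hφ, hT⟩ := exists_tendstoTB (fun k => f (ns k)) w 1 (fun k => (hwn k).le)
  have hfn : Tendsto (fun k => f (ns (φ k))) atTop (𝓝 (f s₀)) :=
    hf.tendsto.comp (hns.comp hφ.tendsto_atTop)
  have hgn : Tendsto (fun k => g (ns (φ k))) atTop (𝓝 (g s₀)) :=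
    hg.tendsto.comp (hns.comp hφ.tendsto_atTop)
  have hz : z₀ = f s₀ := tendsto_nhds_unique hT.base hfn
  subst hz
  have hw0n : ‖w₀‖ = 1 := by
    have h1 := hT.norm
    simp only [hwn] at h1
    exact (tendsto_nhds_unique h1 tendsto_const_nhds)
  have hw0e : e (f s₀) (D • w₀) = g s₀ := by
    have h1 := (hT.smul (c := fun _ => D) (c₀ := D) tendsto_const_nhds).exp F.isExp
    have h2 : (fun k => e (f (ns (φ k))) (D • w (φ k))) = fun k => g (ns (φ k)) := by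
      funext k
      exact (hwL (φ k)).2
    exact tendsto_nhds_unique h1 (by rw [h2]; exact hgn)
  have hw0L : w₀ ∈ Lk e D (g s₀) (f s₀) := ⟨hw0n, hw0e⟩
  have hcrd : Tendsto (fun k => crd (f s₀) (f (ns (φ k))) (w (φ k))) atTop
      (𝓝 (crd (f s₀) (f s₀) w₀)) := (tendstoTB_iff.1 hT).2
  have hk0 : kapK e D (f s₀) u₀ (crd (f s₀) (f s₀) w₀) = 0 := by
    have h1 := ((kapK e D (f s₀) u₀).continuous.tendsto _).comp hcrd
    have h2 : ((kapK e D (f s₀) u₀) ∘ fun k => crd (f s₀) (f (ns (φ k))) (w (φ k))) =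
        fun _ => 0 := by
      funext k
      exact hwk (φ k)
    rw [h2] at h1
    exact (tendsto_nhds_unique h1 tendsto_const_nhds)
  have horth : ∀ r ∈ Kr e D (f s₀) u₀, (inner ℝ r w₀ : ℝ) = 0 := by
    have h1 : (Kr e D (f s₀) u₀).orthogonalProjectionOnto w₀ = 0 := by
      have h2 : kapK e D (f s₀) u₀ (crd (f s₀) (f s₀) w₀) =
          (Kr e D (f s₀) u₀).orthogonalProjectionOnto (vec (f s₀) (f s₀)
            (crd (f s₀) (f s₀) w₀)) := rfl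
      rw [h2, vec_crd (f s₀) hsrc] at hk0
      exact hk0
    have h2 := Submodule.orthogonalProjectionOnto_eq_zero_iff.1 h1
    exact fun r hr => (Submodule.mem_orthogonal _ _).1 h2 r hr
  set c : ℝ := inner ℝ u₀ w₀ with hc
  have hr : w₀ - c • u₀ = 0 := by
    have h1 : w₀ - c • u₀ ∈ Kr e D (f s₀) u₀ := by
      refine (mem_Kr_iff F hD hB hdiam hu).2 ⟨?_, ?_⟩
      · exact Submodule.sub_mem _ (Lk_subset_Pl D _ _ hw0L)
          (Submodule.smul_mem _ _ (Lk_subset_Pl D _ _ hu))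
      · rw [inner_sub_right, inner_smul_right, real_inner_self_eq_norm_sq, hu.1, ← hc]
        ring
    have h2 := horth _ h1
    have h3 := inner_of_mem_Kr F hu.1 h1
    have h4 : (inner ℝ (w₀ - c • u₀) (w₀ - c • u₀) : ℝ) = 0 := by
      conv_lhs => rw [inner_sub_right]
      rw [h2, inner_smul_right, real_inner_comm, h3]
      ring
    exact inner_self_eq_zero.1 h4
  have hw0 : w₀ = c • u₀ := sub_eq_zero.1 hr
  have hc1 : |c| = 1 := by
    have h1 := hw0n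
    rw [hw0, norm_smul, hu.1, mul_one] at h1
    exact h1
  rcases (abs_eq (by norm_num : (0 : ℝ) ≤ 1)).1 hc1 with hc2 | hc2
  · rw [hc2, one_smul] at hw0
    rw [hw0] at hcrd
    obtain ⟨k, hk⟩ := (hcrd.eventually hU).exists
    exact (hall (φ k)).1 ⟨_, hk, lphi_eq_zero (hall (φ k)).2.1 (hwL (φ k)) (hwk (φ k))⟩
  · rw [hc2, neg_smul, one_smul] at hw0
    rw [hw0, map_neg] at hcrd
    have hcrd' := hcrd.neg
    rw [neg_neg] at hcrd'
    obtain ⟨k, hk⟩ := (hcrd'.eventually hU).exists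
    rw [← map_neg] at hk
    refine (hall (φ k)).1 ⟨_, hk, lphi_eq_zero (hall (φ k)).2.1
      (link_neg F hD hB hdiam (hwL (φ k))) ?_⟩
    rw [map_neg, map_neg, hwk, neg_zero]

/-- LIFTS: a smooth family of cut pairs lifts locally to a smooth family of minimal geodesics,
with any given initial lift. -/
theorem exists_lift [CompleteSpace V] (F : Facts e) {D : ℝ} (hD : 0 < D) (hB : InjGE e D)
    (hdiam : ∀ p q : M, dist p q ≤ D) {l : ℕ}
    (hl : ∀ x y : M, dist x y = D → finrank ℝ (Pl e D x y) = l + 1) {f g : V → M} {s₀ : V}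
    (hf : ∀ᶠ s in 𝓝 s₀, ContMDiffAt 𝓘(ℝ, V) 𝓘(ℝ, E) ∞ f s)
    (hg : ∀ᶠ s in 𝓝 s₀, ContMDiffAt 𝓘(ℝ, V) 𝓘(ℝ, E) ∞ g s)
    (hfg : ∀ᶠ s in 𝓝 s₀, dist (f s) (g s) = D)
    {u₀ : TangentSpace 𝓘(ℝ, E) (f s₀)} (hu : u₀ ∈ Lk e D (g s₀) (f s₀)) :
    ∃ u : ∀ s, TangentSpace 𝓘(ℝ, E) (f s), u s₀ = u₀ ∧
      ∀ᶠ s in 𝓝 s₀, SmV f u s ∧ u s ∈ Lk e D (g s) (f s) := by
  have hsrc : f s₀ ∈ (extChartAt 𝓘(ℝ, E) (f s₀)).source := mem_extChartAt_source (f s₀)
  obtain ⟨h, h0, h1, h2⟩ := overdet (lphi_contDiffAt F.isExp hf hg hu.2)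
    (lphi_eq_zero hsrc hu (by
      have h3 : kapK e D (f s₀) u₀ (crd (f s₀) (f s₀) u₀) =
          (Kr e D (f s₀) u₀).orthogonalProjectionOnto (vec (f s₀) (f s₀)
            (crd (f s₀) (f s₀) u₀)) := rfl
      rw [h3, vec_crd (f s₀) hsrc, Submodule.orthogonalProjectionOnto_eq_zero_iff,
        Submodule.mem_orthogonal]
      intro r hr
      rw [real_inner_comm]
      exact inner_of_mem_Kr F hu.1 hr))
    (lphi_injective F hD hf hg hu.2)
    (lphi_exists F hD hB hdiam hl hf.self_of_nhds.continuousAt hg.self_of_nhds.continuousAt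
      hfg hu)
  have hfs : ∀ᶠ s in 𝓝 s₀, f s ∈ (extChartAt 𝓘(ℝ, E) (f s₀)).source :=
    hf.self_of_nhds.continuousAt.eventually
      ((isOpen_extChartAt_source (I := 𝓘(ℝ, E)) (f s₀)).mem_nhds hsrc)
  have hgs : ∀ᶠ s in 𝓝 s₀, g s ∈ (extChartAt 𝓘(ℝ, E) (g s₀)).source :=
    hg.self_of_nhds.continuousAt.eventually
      ((isOpen_extChartAt_source (I := 𝓘(ℝ, E)) (g s₀)).mem_nhds (mem_extChartAt_source (g s₀)))
  have hsm : ∀ᶠ s in 𝓝 s₀, SmV f (fun s => vec (f s₀) (f s) (h s)) s := by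
    filter_upwards [hf, hfs, h1] with s hs1 hs2 hs3
    exact smV_vec (f s₀) hs2 hs1 hs3.1
  have hval : vec (f s₀) (f s₀) (h s₀) = u₀ := by rw [h0, vec_crd (f s₀) hsrc]
  have hes : ∀ᶠ s in 𝓝 s₀, e (f s) (D • vec (f s₀) (f s) (h s)) ∈
      (extChartAt 𝓘(ℝ, E) (g s₀)).source := by
    have h4 := (SmV.smul (c := fun _ => D) contDiffAt_const hsm.self_of_nhds).exp F.isExp
    refine h4.continuousAt.eventually
      ((isOpen_extChartAt_source (I := 𝓘(ℝ, E)) (g s₀)).mem_nhds ?_)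
    simp only
    rw [hval, hu.2]
    exact mem_extChartAt_source (g s₀)
  refine ⟨fun s => vec (f s₀) (f s) (h s), hval, ?_⟩
  filter_upwards [hsm, h1, hgs, hes] with s hs1 hs2 hs3 hs4
  refine ⟨hs1, ?_, ?_⟩
  · have h5 : ‖vec (f s₀) (f s) (h s)‖ ^ 2 - 1 = 0 := congrArg Prod.fst hs2.2
    nlinarith only [h5, norm_nonneg (vec (f s₀) (f s) (h s))]
  · have h5 : extChartAt 𝓘(ℝ, E) (g s₀) (e (f s) (D • vec (f s₀) (f s) (h s))) -
        extChartAt 𝓘(ℝ, E) (g s₀) (g s) = 0 := congrArg (fun q => q.2.2) hs2.2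
    exact (extChartAt 𝓘(ℝ, E) (g s₀)).injOn hs4 hs3 (sub_eq_zero.1 h5)

end

end

end Vale.Agent.P231.H775
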